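import Vale.Agent.P290L37.Main
import Vale.Agent.P290Z.Top.All

open scoped Manifold ContDiff Topology
open Vale.Agent.P290L

/-- (1) Every complex K3 surface carries smooth Hermitian metrics, and it is Oka for the distance of
each of them; this distance is finite and defines the topology. (2) The canonical bundle of a
complex surface is trivial if and only if there is a nowhere vanishing holomorphic two-form. -/
theorem Vale.Agent.Results.P290.AAALiteral.result (E : Type) [NormedAddCommGroup E]
    [NormedSpace ℂ E] (X : Type) [TopologicalSpace X] [ChartedSpace E X]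
    [IsManifold 𝓘(ℂ, E) ω X] :
    (IsK3 E X → (∃ g : Met E X, IsHermitian g) ∧ ∀ g : Met E X, IsHermitian g → IsOka g ∧
      ∀ x, (∀ y, Vale.Agent.P290L.dist g y x < ⊤) ∧
        ∀ s, s ∈ 𝓝 x ↔ ∃ c > 0, {y | Vale.Agent.P290L.dist g y x < c} ⊆ s) ∧
    (Module.finrank ℂ E = 2 → (TrivialCanonical E X ↔ HasForm E X)) :=
  Vale.Agent.P290L37.main Vale.Agent.P290Z.Top.all
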